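import Vale.Agent.P050.H936.Spec2
import Vale.Agent.P050.H869.Sub.Core
import Vale.Agent.P050.H23.GI

/-!
The mean logarithm of the weight of a series-parallel part: `Ker2Stmt`.
-/

set_option linter.unusedSectionVars false

namespace Vale.Agent.P050.H692.Sub

open Finset Vale.Agent.P050.H148 Vale.Agent.P050.Cart Vale.Agent.P050.M18 Vale.Agent.P050.H546
  Vale.Agent.P050.H936 Vale.Agent.P050.H869 Vale.Agent.P050.H869.Sub

variable {U : Type} [Fintype U] [DecidableEq U] {A : U → U → ℝ} {Q : U × U → ℝ}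

theorem wt_nonneg (hA : ∀ x y, 0 ≤ A x y) (p : SP) (x y : U) : 0 ≤ p.wt A x y := by
  induction p generalizing x y with
  | edge => exact hA x y
  | ser p q ihp ihq => exact Finset.sum_nonneg fun z _ => mul_nonneg (ihp x z) (ihq z y)
  | par p q ihp ihq => exact mul_nonneg (ihp x y) (ihq x y)
  | hang p q ihp ihq => exact mul_nonneg (ihp x y) (Finset.sum_nonneg fun z _ => ihq x z)
  | rev p ih => exact ih y x

/-- a natural walk of length `i + j`, read at the times `0`, `i`, `i + j` -/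
noncomputable def JJ (Q : U × U → ℝ) (i j : ℕ) : (U × U) × U → ℝ :=
  att (EE Q i) (fun x => x.2) (zp (nb Q) j)

theorem JJ_one (hE : Edge Q) (i j : ℕ) (x : U × U) (hx : EE Q i x ≠ 0) :
    ∑ z, zp (nb Q) j x.2 z = 1 := zp_nb_one hE j _ (H869.EE_ne hE i hx)

theorem JJ_nn (hE : Edge Q) (i j : ℕ) (ω : (U × U) × U) : 0 ≤ JJ Q i j ω :=
  att_nonneg (H869.EE_nn hE i) (fun a b => zp_nb_nn hE j a b) ω

theorem JJ_tot (hE : Edge Q) (i j : ℕ) : ∑ ω, JJ Q i j ω = 1 :=
  att_total (H869.EE_tot hE i) (JJ_one hE i j)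

theorem JJ_13 (i j : ℕ) (x : U × U) :
    mar (JJ Q i j) (fun ω => (ω.1.1, ω.2)) x = EE Q (i + j) x := by
  obtain ⟨a, z⟩ := x
  have h1 := att_mar2 (EE Q i) (fun x => x.2) (zp (nb Q) j) (fun x => x.1) a z
  unfold JJ
  rw [h1]
  have h2 : ∀ d, mar (EE Q i) (fun ω => (ω.1, ω.2)) (a, d) = EE Q i (a, d) := fun d =>
    mar_id (EE Q i) (a, d)
  simp_rw [h2]
  show ∑ y, mm Q a * zp (nb Q) i a y * zp (nb Q) j y z = mm Q a * zp (nb Q) (i + j) a z
  rw [zp_add, Finset.mul_sum]
  exact Finset.sum_congr rfl fun y _ => by ring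

theorem JJ_12 (hE : Edge Q) (i j : ℕ) (x : U × U) :
    mar (JJ Q i j) (fun ω => (ω.1.1, ω.1.2)) x = EE Q i x := by
  have h1 := mar_att_fst (P := EE Q i) (f := fun x => x.2) (K := zp (nb Q) j) (JJ_one hE i j)
    (fun x => x)
  have h2 := congrFun h1 x
  rw [mar_id] at h2
  exact h2

theorem JJ_23 (hE : Edge Q) (i j : ℕ) (x : U × U) :
    mar (JJ Q i j) (fun ω => (ω.1.2, ω.2)) x = EE Q j x := by
  obtain ⟨y, z⟩ := x
  have h5 := mar_att (P := EE Q i) (f := fun x => x.2) (K := zp (nb Q) j) (fun x => x.2)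
    (fun y => y) (fun _ => rfl) y z
  unfold JJ
  rw [h5, mar_EE_snd hE i]
  rfl

theorem JJ_ent (hE : Edge Q) (i j : ℕ) :
    ent (JJ Q i j) (fun ω => (ω.1.1, ω.1.2, ω.2)) = hh Q i + hh Q j - aQ Q := by
  have h1 := ent_att (P := EE Q i) (f := fun x => x.2) (K := zp (nb Q) j) (H869.EE_nn hE i)
    (fun a b => zp_nb_nn hE j a b) (JJ_one hE i j) (fun x => x) (fun x => x.2) (fun _ => rfl)
  have h3 : ent (EE Q i) (fun x => x.2) = aQ Q := by
    unfold aQ ent
    rw [mar_EE_snd hE i]
    simp_rw [mar_id]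
  have h4 : ent (JJ Q i j) (fun ω => (ω.1.2, ω.2)) = hh Q j := by
    unfold hh
    refine ent_law fun a => ?_
    rw [JJ_23 hE i j, mar_id]
  have h5 : ent (JJ Q i j) (fun ω => (ω.1.1, ω.1.2, ω.2)) = ent (JJ Q i j) (fun ω => (ω.1, ω.2)) :=
    ent_same _ fun x y => by
      simp only [Prod.ext_iff, and_assoc]
  have h6 : ent (JJ Q i j) (fun ω => (ω.1, ω.2)) + ent (EE Q i) (fun x => x.2) =
      hh Q i + ent (JJ Q i j) (fun ω => (ω.1.2, ω.2)) := h1
  rw [h5]
  linarith

/-- a law gives a point of the big space -/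
theorem exists_of_mar {Ω α : Type} [Fintype Ω] {P : Ω → ℝ} {f : Ω → α} {a : α}
    (h : mar P f a ≠ 0) : ∃ ω, P ω ≠ 0 ∧ f ω = a := by
  classical
  unfold mar at h
  obtain ⟨ω, -, hω⟩ := Finset.exists_ne_zero_of_sum_ne_zero h
  have h3 : f ω = a := by
    by_contra hne
    exact hω (if_neg hne)
  rw [if_pos h3] at hω
  exact ⟨ω, hω, h3⟩

/-- `2 a - hh` -/
theorem gain_le (hE : Edge Q) (μ l : ℕ) :
    ((if l ≤ μ then 1 else 0 : ℕ) : ℝ) * (2 * aQ Q - hh Q μ) ≤ 2 * aQ Q - hh Q l := by
  split_ifs with h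
  · have h1 : hh Q l ≤ hh Q μ := monotone_nat_of_le_succ (H23.hh_mono hE) h
    push_cast
    linarith
  · have h1 := H23.hh_le hE l
    push_cast
    linarith

/-- [K2] -/
theorem ker2 : Ker2Stmt := by
  intro U _ _ A Q hE hA hQA μ p hp
  refine ⟨wt_nonneg hA p, ?_⟩
  induction p with
  | edge =>
    have e1 : EE Q 1 = Q := H23.EE_one hE
    constructor
    · intro x hx
      show A x.1 x.2 ≠ 0
      have hx' : Q (x.1, x.2) ≠ 0 := by
        have : EE Q 1 x ≠ 0 := hx
        rwa [e1] at this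
      rw [hQA _ _ hx']
      exact one_ne_zero
    · have h1 : ∑ x, EE Q SP.edge.len x * Real.log (SP.edge.wt A x.1 x.2) = 0 := by
        refine Finset.sum_eq_zero fun x _ => ?_
        show EE Q 1 x * Real.log (A x.1 x.2) = 0
        rw [e1]
        by_cases h0 : Q x = 0
        · rw [h0, zero_mul]
        · rw [hQA x.1 x.2 h0, Real.log_one, mul_zero]
      rw [h1]
      have h2 : hh Q SP.edge.len = hQ Q := H23.hh_one hE
      rw [h2]
      simp only [SP.size, SP.num, SP.gain]
      push_cast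
      linarith
  | ser p q ihp ihq =>
    obtain ⟨hp1, hp2⟩ := ihp hp.1
    obtain ⟨hq1, hq2⟩ := ihq hp.2
    set i := p.len with hi
    set j := q.len with hj
    have key := ent_log_cond (JJ_nn hE i j) (JJ_tot hE i j) (fun ω => (ω.1.1, ω.1.2, ω.2))
      (fun a : U × U × U => (a.1, a.2.2)) (fun a => p.wt A a.1 a.2.1 * q.wt A a.2.1 a.2.2)
      (fun b => (SP.ser p q).wt A b.1 b.2)
      (fun a => mul_nonneg (wt_nonneg hA p _ _) (wt_nonneg hA q _ _)) (fun b => by
        obtain ⟨x, z⟩ := b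
        rw [mar_prod_13]
        rfl)
      (fun ω h0 => mul_ne_zero
        (hp1 (ω.1.1, ω.1.2) (by
          rw [← JJ_12 hE i j]
          exact mar_ne_zero (JJ_nn hE i j) (fun ω => (ω.1.1, ω.1.2)) h0))
        (hq1 (ω.1.2, ω.2) (by
          rw [← JJ_23 hE i j]
          exact mar_ne_zero (JJ_nn hE i j) (fun ω => (ω.1.2, ω.2)) h0)))
    obtain ⟨k1, k2⟩ := key
    simp only at k1 k2
    constructor
    · intro x hx
      have hx' : EE Q (i + j) x ≠ 0 := hx
      rw [← JJ_13 i j] at hx'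
      obtain ⟨ω, h0, h1⟩ := exists_of_mar hx'
      have h2 := k1 ω h0
      rw [← h1]
      exact h2
    · have e1 : ∑ ω, JJ Q i j ω * Real.log (p.wt A ω.1.1 ω.1.2 * q.wt A ω.1.2 ω.2) =
          ∑ x, EE Q i x * Real.log (p.wt A x.1 x.2) +
            ∑ x, EE Q j x * Real.log (q.wt A x.1 x.2) := by
        have h1 := sum_mar (JJ Q i j) (fun ω => (ω.1.1, ω.1.2))
          fun a => Real.log (p.wt A a.1 a.2)
        have h2 := sum_mar (JJ Q i j) (fun ω => (ω.1.2, ω.2)) fun a => Real.log (q.wt A a.1 a.2)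
        simp_rw [JJ_12 hE i j] at h1
        simp_rw [JJ_23 hE i j] at h2
        rw [h1, h2, ← Finset.sum_add_distrib]
        refine Finset.sum_congr rfl fun ω _ => ?_
        by_cases h0 : JJ Q i j ω = 0
        · rw [h0]; ring
        · rw [Real.log_mul
            (hp1 (ω.1.1, ω.1.2) (by
              rw [← JJ_12 hE i j]
              exact mar_ne_zero (JJ_nn hE i j) (fun ω => (ω.1.1, ω.1.2)) h0))
            (hq1 (ω.1.2, ω.2) (by
              rw [← JJ_23 hE i j]
              exact mar_ne_zero (JJ_nn hE i j) (fun ω => (ω.1.2, ω.2)) h0))]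
          ring
      have e2 : ent (JJ Q i j) (fun ω => (ω.1.1, ω.2)) = hh Q (i + j) := by
        unfold hh
        refine ent_law fun a => ?_
        rw [JJ_13 i j, mar_id]
      have e3 : ∑ ω, JJ Q i j ω * Real.log ((SP.ser p q).wt A ω.1.1 ω.2) =
          ∑ x, EE Q (i + j) x * Real.log ((SP.ser p q).wt A x.1 x.2) := by
        have h1 := sum_mar (JJ Q i j) (fun ω => (ω.1.1, ω.2))
          fun a => Real.log ((SP.ser p q).wt A a.1 a.2)
        simp_rw [JJ_13 i j] at h1
        exact h1.symm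
      rw [e1, e2, e3, JJ_ent hE i j] at k2
      have e4 : (SP.ser p q).len = i + j := rfl
      rw [e4]
      simp only [SP.size, SP.num, SP.gain]
      push_cast
      linarith
  | par p q ihp ihq =>
    obtain ⟨hpo, hqo, hl, -⟩ := hp
    obtain ⟨hp1, hp2⟩ := ihp hpo
    obtain ⟨hq1, hq2⟩ := ihq hqo
    rw [← hl] at hq1 hq2
    set i := p.len with hi
    have e4 : (SP.par p q).len = i := rfl
    rw [e4]
    constructor
    · exact fun x hx => mul_ne_zero (hp1 x hx) (hq1 x hx)
    · have e1 : ∑ x, EE Q i x * Real.log ((SP.par p q).wt A x.1 x.2) =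
          ∑ x, EE Q i x * Real.log (p.wt A x.1 x.2) +
            ∑ x, EE Q i x * Real.log (q.wt A x.1 x.2) := by
        rw [← Finset.sum_add_distrib]
        refine Finset.sum_congr rfl fun x _ => ?_
        by_cases h0 : EE Q i x = 0
        · rw [h0]; ring
        · show EE Q i x * Real.log (p.wt A x.1 x.2 * q.wt A x.1 x.2) = _
          rw [Real.log_mul (hp1 x h0) (hq1 x h0)]
          ring
      rw [e1]
      have h5 := gain_le hE μ i
      simp only [SP.size, SP.num, SP.gain]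
      rw [← hi]
      push_cast at h5 ⊢
      linarith
  | hang p q ihp ihq =>
    obtain ⟨hp1, hp2⟩ := ihp hp.1
    obtain ⟨hq1, hq2⟩ := ihq hp.2
    set i := p.len with hi
    set j := q.len with hj
    have e4 : (SP.hang p q).len = i := rfl
    rw [e4]
    have key := ent_log_cond (H869.EE_nn hE j) (H869.EE_tot hE j) (fun x => x)
      (fun a : U × U => a.1) (fun a => q.wt A a.1 a.2) (fun x => ∑ z, q.wt A x z)
      (fun a => wt_nonneg hA q _ _) (fun x => by rw [mar_prod_fst]) (fun x h0 => hq1 x h0)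
    obtain ⟨k1, k2⟩ := key
    have hv : ∀ x, mm Q x ≠ 0 → ∑ z, q.wt A x z ≠ 0 := by
      intro x hx
      have h1 : mar (EE Q j) (fun a => a.1) x ≠ 0 := by
        rw [H23.EE_fst hE j]
        exact hx
      obtain ⟨ω, h0, h1⟩ := exists_of_mar h1
      rw [← h1]
      exact k1 ω h0
    constructor
    · intro x hx
      exact mul_ne_zero (hp1 x hx) (hv x.1 (H23.EE_ne hE hx).1)
    · have e1 : ∑ x, EE Q i x * Real.log ((SP.hang p q).wt A x.1 x.2) =
          ∑ x, EE Q i x * Real.log (p.wt A x.1 x.2) +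
            ∑ x, mm Q x * Real.log (∑ z, q.wt A x z) := by
        have h1 := sum_mar (EE Q i) (fun x => x.1) fun a => Real.log (∑ z, q.wt A a z)
        rw [H23.EE_fst hE i] at h1
        rw [h1, ← Finset.sum_add_distrib]
        refine Finset.sum_congr rfl fun x _ => ?_
        by_cases h0 : EE Q i x = 0
        · rw [h0]; ring
        · show EE Q i x * Real.log (p.wt A x.1 x.2 * ∑ z, q.wt A x.1 z) = _
          rw [Real.log_mul (hp1 x h0) (hv x.1 (H23.EE_ne hE h0).1)]
          ring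
      have e2 : ∑ x, EE Q j x * Real.log (∑ z, q.wt A x.1 z) =
          ∑ x, mm Q x * Real.log (∑ z, q.wt A x z) := by
        have h1 := sum_mar (EE Q j) (fun x => x.1) fun a => Real.log (∑ z, q.wt A a z)
        rw [H23.EE_fst hE j] at h1
        exact h1.symm
      have e3 : ent (EE Q j) (fun x => x) = hh Q j := rfl
      rw [e2, e3, H23.ent_EE_fst hE j] at k2
      rw [e1]
      simp only [SP.size, SP.num, SP.gain]
      push_cast
      linarith
  | rev p ih =>
    obtain ⟨hp1, hp2⟩ := ih hp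
    set i := p.len with hi
    have e4 : (SP.rev p).len = i := rfl
    rw [e4]
    constructor
    · intro x hx
      have hx' : EE Q i (x.2, x.1) ≠ 0 := by
        rw [H23.EE_sym hE]
        exact hx
      exact hp1 (x.2, x.1) hx'
    · have e1 : ∑ x, EE Q i x * Real.log ((SP.rev p).wt A x.1 x.2) =
          ∑ x, EE Q i x * Real.log (p.wt A x.1 x.2) := by
        rw [← Equiv.sum_comp (Equiv.prodComm U U)]
        refine Finset.sum_congr rfl fun x _ => ?_
        show EE Q i (x.2, x.1) * Real.log (p.wt A x.1 x.2) = _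
        rw [H23.EE_sym hE]
      rw [e1]
      simp only [SP.size, SP.num, SP.gain]
      exact hp2

end Vale.Agent.P050.H692.Sub
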